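import Mathlib

/-!
# ROW 252, UNIT CORDOBA: planar coefficient clustering by the L2 argument            (architect = prover helper297)
STATUS: PROVED, no sorry in this file.

Replaces `lem:scalar-clustering` (05 l.38) in its ONLY use with zero quadratic coefficient (07 l.1512, horizontal coefficient count): no plank estimate, no Kakeya input.
Paper-free.  ONE scale `p`, ONE slack `K ≥ 1`, fixed exponent `0 ≤ d < 1`; the constants `cdbG d`, `cdbC d`, `cdbD d` depend on `d` only.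

DATA. trajectories `l` with affine signal `x_l(t) = x0 l + t * x1 l`; prior `ν` (mass `≤ K`); incidence measure `lam ≤ K ν ⊗ dt` on `L × [0,1]`;
`lam`-almost every incidence `(l, t)` has `(t, x_l(t))` in one of the squares `|t - ct i| ≤ p, |x - cx i| ≤ p`, `i ∈ S` (ARBITRARY centres, side `2 p`);
coefficient cap `ν (ball of radius r) ≤ K r^d` for `p ≤ r ≤ 1` (sup-norm balls of the coefficient plane).
RESULTS.
* `cdb_count`   : all grid bins of side `p` have prior mass `≤ p^d / s^3`, `lam` of mass `≥ 1/K`  ⟹  `#S ≥ p^(-1-d) s^(1-d) / (164 G K^6)`   (`s = N^(δ/3)`: gain `N^(δ (1-d)/3)`).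
* `cdb_cluster` : `#S ≤ K p^(-1-d)`, mass `≥ 1/K`  ⟹  some grid bin has prior mass `≥ p^d / (C K^C)`.
* `cdb_cluster_gen` : the same for an arbitrary measurable space of trajectories (auxiliary indices allowed).
* `cdb_exhaust` : `#S ≤ K p^(-1-d)`  ⟹  the incidences whose trajectory lies in a grid bin of ACTIVE mass `< p^d / (D K^D)` have total mass `≤ 1/K`
  (this is the form used in 07 l.1519-1530: "all but negligible mass can be assigned to heavy bins").
* `cdb_heavy_card` : at most `K^2 / θ` grid bins have active mass `≥ θ`.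
Use only `cdb_G_ge`, `cdb_C_ge`, `cdb_D_ge` (all `≥ 1`) about the constants.
Every statement only has UPPER hypotheses besides the mass, hence "applies anew to every dense residual" (restrict `lam`, and `ν` if wanted).
-/

set_option autoImplicit false

namespace Claimed.Agent.R252

open MeasureTheory Set
open scoped ENNReal

noncomputable section


/-- the grid bin of side `p` and index `(i, j)` of the coefficient plane -/
def cdbBin (p : ℝ) (i j : ℤ) : Set (ℝ × ℝ) := Ico (i * p) ((i + 1) * p) ×ˢ Ico (j * p) ((j + 1) * p)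
/-- unit time -/
def cdbTime : Measure ℝ := volume.restrict (Icc 0 1)
/-- the geometric constant `∑ 2^(-j (1-d))` -/
def cdbG (d : ℝ) : ℝ := 1 / (1 - 2 ^ (d - 1))

theorem cdb_sq (a b : ℝ≥0∞) : 2 * a * b ≤ a * a + b * b := by
  rcases eq_or_ne a ⊤ with rfl | ha
  · simp
  rcases eq_or_ne b ⊤ with rfl | hb
  · simp
  lift a to NNReal using ha
  lift b to NNReal using hb
  have h : (2 : NNReal) * a * b ≤ a * a + b * b := by
    have := two_mul_le_add_sq (a : ℝ) (b : ℝ)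
    have h2 : ((2 : NNReal) * a * b : NNReal) = (2 * (a:ℝ) * b : ℝ) := by push_cast; ring
    rw [← NNReal.coe_le_coe]
    push_cast
    nlinarith
  exact_mod_cast h

theorem cdb_cs {α : Type*} [MeasurableSpace α] (μ : Measure α) (T : Set α) (f : α → ℝ≥0∞) (c : ℝ≥0∞) (hc : c ≠ ⊤) :
    2 * c * ∫⁻ y in T, f y ∂μ ≤ ∫⁻ y, f y * f y ∂μ + c * c * μ T := by
  have h2c : 2 * c ≠ ⊤ := ENNReal.mul_ne_top (by simp) hc
  calc 2 * c * ∫⁻ y in T, f y ∂μ = ∫⁻ y in T, 2 * c * f y ∂μ := (lintegral_const_mul' _ _ h2c).symm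
    _ ≤ ∫⁻ y in T, (f y * f y + c * c) ∂μ := by
        apply lintegral_mono
        intro y
        have := cdb_sq c (f y)
        rw [add_comm] at this
        exact this
    _ = ∫⁻ y in T, f y * f y ∂μ + c * c * μ T := by
        rw [lintegral_add_right _ measurable_const, setLIntegral_const]
    _ ≤ _ := by
        gcongr
        exact Measure.restrict_le_self

theorem cdb_time_univ : cdbTime univ = 1 := by
  simp [cdbTime]

instance : IsProbabilityMeasure cdbTime := ⟨cdb_time_univ⟩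

theorem cdb_slice {α β p : ℝ} (hp : 0 < p) (hρ : 0 < max |α| |β|) :
    cdbTime {t | |α + t * β| ≤ 2 * p} ≤ ENNReal.ofReal (8 * p / max |α| |β|) := by
  set ρ := max |α| |β| with hρdef
  by_cases h8 : ρ ≤ 8 * p
  · calc cdbTime {t | |α + t * β| ≤ 2 * p} ≤ cdbTime univ := measure_mono (subset_univ _)
      _ = 1 := cdb_time_univ
      _ ≤ _ := by
        rw [← ENNReal.ofReal_one]
        apply ENNReal.ofReal_le_ofReal
        rw [le_div_iff₀ hρ]
        linarith
  · push Not at h8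
    by_cases hE : ∃ t ∈ Icc (0:ℝ) 1, |α + t * β| ≤ 2 * p
    · obtain ⟨t, ht, h⟩ := hE
      have h1 : |α| ≤ 2 * p + |β| := by
        have e : α = (α + t * β) - t * β := by ring
        have h3 : |t * β| ≤ |β| := by
          rw [abs_mul, abs_of_nonneg ht.1]
          exact mul_le_of_le_one_left (abs_nonneg _) ht.2
        calc |α| = |(α + t * β) - t * β| := by rw [← e]
          _ ≤ |α + t * β| + |t * β| := abs_sub _ _
          _ ≤ _ := by linarith
      have hβ : ρ / 2 ≤ |β| := by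
        rcases le_total |α| |β| with h' | h'
        · have : ρ = |β| := max_eq_right h'
          rw [this]; linarith [abs_nonneg β]
        · have : ρ = |α| := max_eq_left h'
          linarith
      have hβ0 : 0 < |β| := by linarith
      have hβne : β ≠ 0 := abs_pos.1 hβ0
      calc cdbTime {t | |α + t * β| ≤ 2 * p} ≤ volume {t | |α + t * β| ≤ 2 * p} := Measure.restrict_le_self _
        _ ≤ volume (Metric.closedBall (-α / β) (2 * p / |β|)) := by
          apply measure_mono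
          intro u hu
          rw [Metric.mem_closedBall, Real.dist_eq, le_div_iff₀ hβ0, ← abs_mul]
          have : (u - -α / β) * β = α + u * β := by field_simp; ring
          rw [this]
          exact hu
        _ = ENNReal.ofReal (2 * (2 * p / |β|)) := Real.volume_closedBall _ _
        _ ≤ _ := by
          apply ENNReal.ofReal_le_ofReal
          rw [le_div_iff₀ hρ]
          have : 2 * (2 * p / |β|) * ρ = 4 * p * (ρ / |β|) := by field_simp; ring
          rw [this]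
          have h5 : ρ / |β| ≤ 2 := by rw [div_le_iff₀ hβ0]; linarith
          nlinarith
    · have : {t | |α + t * β| ≤ 2 * p} ∩ Icc (0:ℝ) 1 = ∅ := by
        ext t
        simp only [mem_inter_iff, mem_ofPred_eq, mem_empty_iff_false, iff_false, not_and]
        intro h1 h2
        exact hE ⟨t, h2, h1⟩
      rw [cdbTime, Measure.restrict_apply' measurableSet_Icc, this]
      simp

theorem cdb_mem_bin {p : ℝ} (hp : 0 < p) (z : ℝ × ℝ) : z ∈ cdbBin p ⌊z.1 / p⌋ ⌊z.2 / p⌋ := by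
  unfold cdbBin
  refine ⟨⟨?_, ?_⟩, ⟨?_, ?_⟩⟩
  · exact (le_div_iff₀ hp).1 (Int.floor_le _)
  · exact (div_lt_iff₀ hp).1 (Int.lt_floor_add_one _)
  · exact (le_div_iff₀ hp).1 (Int.floor_le _)
  · exact (div_lt_iff₀ hp).1 (Int.lt_floor_add_one _)

theorem cdb_bin_idx {p : ℝ} (hp : 0 < p) {z : ℝ × ℝ} {i j : ℤ} (h : z ∈ cdbBin p i j) : ⌊z.1 / p⌋ = i ∧ ⌊z.2 / p⌋ = j := by
  unfold cdbBin at h
  obtain ⟨⟨h1, h2⟩, ⟨h3, h4⟩⟩ := h
  constructor
  · rw [Int.floor_eq_iff]
    exact ⟨(le_div_iff₀ hp).2 h1, (div_lt_iff₀ hp).2 h2⟩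
  · rw [Int.floor_eq_iff]
    exact ⟨(le_div_iff₀ hp).2 h3, (div_lt_iff₀ hp).2 h4⟩

theorem cdb_bin_meas (p : ℝ) (i j : ℤ) : MeasurableSet (cdbBin p i j) :=
  measurableSet_Ico.prod measurableSet_Ico

theorem cdb_floor_near {p a x : ℝ} (hp : 0 < p) (n : ℕ) (h : |x - a| ≤ n * p) :
    ⌊x / p⌋ ∈ Finset.Icc (⌊a / p⌋ - n) (⌊a / p⌋ + n) := by
  rw [abs_le] at h
  rw [Finset.mem_Icc]
  constructor
  · rw [Int.le_floor]
    push_cast
    have h1 : (⌊a / p⌋ : ℝ) ≤ a / p := Int.floor_le _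
    have h2 : a / p - n ≤ x / p := by
      rw [le_div_iff₀ hp, sub_mul, div_mul_cancel₀ _ hp.ne']
      linarith
    linarith
  · rw [Int.floor_le_iff]
    push_cast
    have h1 : a / p < (⌊a / p⌋ : ℝ) + 1 := Int.lt_floor_add_one _
    have h2 : x / p ≤ a / p + n := by
      rw [div_le_iff₀ hp, add_mul, div_mul_cancel₀ _ hp.ne']
      linarith
    linarith

theorem cdb_ball_bins {p : ℝ} (hp : 0 < p) (ν : Measure (ℝ × ℝ)) (b : ℝ≥0∞) (hbin : ∀ i j : ℤ, ν (cdbBin p i j) ≤ b)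
    (a : ℝ × ℝ) (n : ℕ) : ν (Metric.closedBall a (n * p)) ≤ ((2 * n + 1 : ℕ) * (2 * n + 1 : ℕ) : ℕ) * b := by
  set F : Finset (ℤ × ℤ) := Finset.Icc (⌊a.1 / p⌋ - n) (⌊a.1 / p⌋ + n) ×ˢ Finset.Icc (⌊a.2 / p⌋ - n) (⌊a.2 / p⌋ + n) with hF
  have hsub : Metric.closedBall a (n * p) ⊆ ⋃ q ∈ F, cdbBin p q.1 q.2 := by
    intro z hz
    rw [Metric.mem_closedBall, Prod.dist_eq, max_le_iff, Real.dist_eq, Real.dist_eq] at hz
    simp only [mem_iUnion]
    refine ⟨(⌊z.1 / p⌋, ⌊z.2 / p⌋), ?_, cdb_mem_bin hp z⟩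
    rw [hF, Finset.mem_product]
    exact ⟨cdb_floor_near hp n hz.1, cdb_floor_near hp n hz.2⟩
  have hcard : F.card = (2 * n + 1) * (2 * n + 1) := by
    rw [hF, Finset.card_product, Int.card_Icc, Int.card_Icc]
    have e1 : (⌊a.1 / p⌋ + n + 1 - (⌊a.1 / p⌋ - n)).toNat = 2 * n + 1 := by omega
    have e2 : (⌊a.2 / p⌋ + n + 1 - (⌊a.2 / p⌋ - n)).toNat = 2 * n + 1 := by omega
    rw [e1, e2]
  calc ν (Metric.closedBall a (n * p)) ≤ ν (⋃ q ∈ F, cdbBin p q.1 q.2) := measure_mono hsub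
    _ ≤ ∑ q ∈ F, ν (cdbBin p q.1 q.2) := measure_biUnion_finset_le _ _
    _ ≤ ∑ _q ∈ F, b := Finset.sum_le_sum fun q _ => hbin q.1 q.2
    _ = _ := by rw [Finset.sum_const, hcard, nsmul_eq_mul]

theorem cdb_q_lt {d : ℝ} (hd1 : d < 1) : (2:ℝ) ^ (d - 1) < 1 :=
  Real.rpow_lt_one_of_one_lt_of_neg (by norm_num) (by linarith)

theorem cdb_G_one_le {d : ℝ} (hd1 : d < 1) : 1 ≤ cdbG d := by
  unfold cdbG
  have h1 := cdb_q_lt hd1
  have h2 : (0:ℝ) < 2 ^ (d - 1) := Real.rpow_pos_of_pos (by norm_num) _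
  rw [le_div_iff₀ (by linarith)]
  linarith

theorem cdb_G_ge {d : ℝ} (_hd0 : 0 ≤ d) (hd1 : d < 1) : 1 ≤ cdbG d := cdb_G_one_le hd1

/-- the term of the dyadic sum -/
theorem cdb_term {d K p s : ℝ} (hp : 0 < p) (hs : 1 ≤ s) (j : ℕ) :
    8 * p / (2 ^ j * (p * s)) * (K * (2 ^ (j + 1) * (p * s)) ^ d) = 8 * K * 2 ^ d * p ^ d * s ^ (d - 1) * (2 ^ (d - 1)) ^ j := by
  have hs0 : 0 < s := by linarith
  rw [Real.mul_rpow (by positivity) (by positivity), Real.mul_rpow hp.le hs0.le, ← Real.rpow_pow_comm (by norm_num) d (j + 1),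
    Real.rpow_sub_one hs0.ne', Real.rpow_sub_one (by norm_num : (2:ℝ) ≠ 0), div_pow, pow_succ]
  generalize (2:ℝ) ^ d = A
  generalize p ^ d = P
  generalize s ^ d = Q
  field_simp

theorem cdb_kernel {d K p s : ℝ} (hd0 : 0 ≤ d) (hd1 : d < 1) (hK : 1 ≤ K) (hp : 0 < p) (hs : 1 ≤ s)
    (ν : Measure (ℝ × ℝ)) (hν : ν univ ≤ ENNReal.ofReal K)
    (hcap : ∀ (a : ℝ × ℝ) (r : ℝ), p ≤ r → r ≤ 1 → ν (Metric.closedBall a r) ≤ ENNReal.ofReal (K * r ^ d))
    (hbin : ∀ i j : ℤ, ν (cdbBin p i j) ≤ ENNReal.ofReal (p ^ d / s ^ 3)) (l : ℝ × ℝ) :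
    ∫⁻ l', cdbTime {t | |(l.1 - l'.1) + t * (l.2 - l'.2)| ≤ 2 * p} ∂ν
      ≤ ENNReal.ofReal (41 * K * cdbG d * p ^ d * s ^ (d - 1)) := by
  have hs0 : 0 < s := by linarith
  have hK0 : 0 < K := by linarith
  have hcap' : ∀ (a : ℝ × ℝ) (r : ℝ), p ≤ r → ν (Metric.closedBall a r) ≤ ENNReal.ofReal (K * r ^ d) := by
    intro a r hr
    rcases le_total r 1 with h1 | h1
    · exact hcap a r hr h1
    · refine (measure_mono (subset_univ _)).trans (hν.trans (ENNReal.ofReal_le_ofReal ?_))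
      have : 1 ≤ r ^ d := Real.one_le_rpow h1 hd0
      nlinarith
  set r₁ : ℝ := p * s with hr₁
  have hr₁0 : 0 < r₁ := by positivity
  have hr₁p : p ≤ r₁ := by rw [hr₁]; nlinarith
  set c : ℕ → ℝ≥0∞ := fun j => ENNReal.ofReal (8 * p / (2 ^ j * r₁)) with hc
  -- pointwise bound
  have hpt : ∀ l' : ℝ × ℝ, cdbTime {t | |(l.1 - l'.1) + t * (l.2 - l'.2)| ≤ 2 * p}
      ≤ (Metric.closedBall l r₁).indicator (fun _ => (1:ℝ≥0∞)) l'
        + ∑' j, c j * (Metric.closedBall l (2 ^ (j + 1) * r₁)).indicator (fun _ => (1:ℝ≥0∞)) l' := by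
    intro l'
    have hdist : dist l' l = max |l.1 - l'.1| |l.2 - l'.2| := by
      rw [dist_comm, Prod.dist_eq, Real.dist_eq, Real.dist_eq]
    by_cases hn : dist l' l ≤ r₁
    · have : l' ∈ Metric.closedBall l r₁ := hn
      rw [indicator_of_mem this]
      refine le_add_right ?_
      exact (measure_mono (subset_univ _)).trans cdb_time_univ.le
    · push Not at hn
      have hρ : 0 < dist l' l := hr₁0.trans hn
      obtain ⟨j, hj1, hj2⟩ := exists_nat_pow_near (x := dist l' l / r₁) (by rw [le_div_iff₀ hr₁0]; linarith) (by norm_num : (1:ℝ) < 2)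
      rw [le_div_iff₀ hr₁0] at hj1
      rw [div_lt_iff₀ hr₁0] at hj2
      have hmem : l' ∈ Metric.closedBall l (2 ^ (j + 1) * r₁) := hj2.le
      refine le_add_left ?_
      refine le_trans ?_ (ENNReal.le_tsum j)
      rw [indicator_of_mem hmem, mul_one]
      have h1 := cdb_slice (α := l.1 - l'.1) (β := l.2 - l'.2) hp (by rw [← hdist]; exact hρ)
      refine h1.trans (ENNReal.ofReal_le_ofReal ?_)
      rw [← hdist]
      apply div_le_div_of_nonneg_left (by positivity) (by positivity) hj1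
  -- near part
  have hnear : ν (Metric.closedBall l r₁) ≤ ENNReal.ofReal (25 * p ^ d / s) := by
    set n : ℕ := ⌈s⌉₊ with hn
    have hn1 : s ≤ n := Nat.le_ceil s
    have hn2 : (n:ℝ) < s + 1 := Nat.ceil_lt_add_one hs0.le
    have h1 : ν (Metric.closedBall l r₁) ≤ ν (Metric.closedBall l (n * p)) := by
      apply measure_mono
      apply Metric.closedBall_subset_closedBall
      rw [hr₁]; nlinarith
    refine h1.trans ((cdb_ball_bins hp ν _ hbin l n).trans ?_)
    rw [← ENNReal.ofReal_natCast, ← ENNReal.ofReal_mul (by positivity)]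
    apply ENNReal.ofReal_le_ofReal
    push_cast
    have hP : 0 < p ^ d := Real.rpow_pos_of_pos hp _
    have h3 : (2 * (n:ℝ) + 1) * (2 * n + 1) ≤ 25 * s ^ 2 := by nlinarith
    have e : 25 * p ^ d / s = 25 * s ^ 2 * (p ^ d / s ^ 3) := by field_simp
    rw [e]
    apply mul_le_mul_of_nonneg_right h3 (by positivity)
  -- far part
  have hq0 : (0:ℝ) < 2 ^ (d - 1) := Real.rpow_pos_of_pos (by norm_num) _
  have hq1 := cdb_q_lt hd1
  have hP : 0 < p ^ d := Real.rpow_pos_of_pos hp _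
  have hS : 0 < s ^ (d - 1) := Real.rpow_pos_of_pos hs0 _
  have h2d : 0 < (2:ℝ) ^ d := Real.rpow_pos_of_pos (by norm_num) _
  have hfar : ∑' j, c j * ν (Metric.closedBall l (2 ^ (j + 1) * r₁))
      ≤ ENNReal.ofReal (8 * K * 2 ^ d * p ^ d * s ^ (d - 1) * cdbG d) := by
    have hterm : ∀ j, c j * ν (Metric.closedBall l (2 ^ (j + 1) * r₁))
        ≤ ENNReal.ofReal (8 * K * 2 ^ d * p ^ d * s ^ (d - 1) * (2 ^ (d - 1)) ^ j) := by
      intro j
      have hr : p ≤ 2 ^ (j + 1) * r₁ := by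
        have : (1:ℝ) ≤ 2 ^ (j + 1) := one_le_pow₀ (by norm_num)
        nlinarith
      calc c j * ν (Metric.closedBall l (2 ^ (j + 1) * r₁))
          ≤ c j * ENNReal.ofReal (K * (2 ^ (j + 1) * r₁) ^ d) := by gcongr; exact hcap' l _ hr
        _ = ENNReal.ofReal (8 * p / (2 ^ j * r₁) * (K * (2 ^ (j + 1) * r₁) ^ d)) := by
            rw [hc, ← ENNReal.ofReal_mul (by positivity)]
        _ = _ := by rw [hr₁, cdb_term hp hs j]
    refine (ENNReal.tsum_le_tsum hterm).trans ?_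
    have hsum : Summable fun j : ℕ => 8 * K * 2 ^ d * p ^ d * s ^ (d - 1) * (2 ^ (d - 1) : ℝ) ^ j :=
      (summable_geometric_of_lt_one hq0.le hq1).mul_left _
    rw [← ENNReal.ofReal_tsum_of_nonneg (fun j => by positivity) hsum, tsum_mul_left, tsum_geometric_of_lt_one hq0.le hq1]
    apply le_of_eq
    rw [cdbG, one_div]
  -- integrate
  calc ∫⁻ l', cdbTime {t | |(l.1 - l'.1) + t * (l.2 - l'.2)| ≤ 2 * p} ∂ν
      ≤ ∫⁻ l', ((Metric.closedBall l r₁).indicator (fun _ => (1:ℝ≥0∞)) l'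
        + ∑' j, c j * (Metric.closedBall l (2 ^ (j + 1) * r₁)).indicator (fun _ => (1:ℝ≥0∞)) l') ∂ν := lintegral_mono hpt
    _ = ν (Metric.closedBall l r₁) + ∑' j, c j * ν (Metric.closedBall l (2 ^ (j + 1) * r₁)) := by
        rw [lintegral_add_left (measurable_const.indicator Metric.isClosed_closedBall.measurableSet),
          lintegral_tsum (fun j => ((measurable_const.indicator Metric.isClosed_closedBall.measurableSet).const_mul _).aemeasurable),
          lintegral_indicator_const Metric.isClosed_closedBall.measurableSet, one_mul]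
        congr 1
        apply tsum_congr
        intro j
        rw [lintegral_const_mul _ (measurable_const.indicator Metric.isClosed_closedBall.measurableSet),
          lintegral_indicator_const Metric.isClosed_closedBall.measurableSet, one_mul]
    _ ≤ ENNReal.ofReal (25 * p ^ d / s) + ENNReal.ofReal (8 * K * 2 ^ d * p ^ d * s ^ (d - 1) * cdbG d) := add_le_add hnear hfar
    _ = ENNReal.ofReal (25 * p ^ d / s + 8 * K * 2 ^ d * p ^ d * s ^ (d - 1) * cdbG d) := by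
        rw [ENNReal.ofReal_add (by positivity) (by have := cdb_G_one_le hd1; positivity)]
    _ ≤ _ := by
        apply ENNReal.ofReal_le_ofReal
        have hG := cdb_G_one_le hd1
        have h2 : (2:ℝ) ^ d ≤ 2 := by
          calc (2:ℝ) ^ d ≤ 2 ^ (1:ℝ) := Real.rpow_le_rpow_of_exponent_le (by norm_num) hd1.le
            _ = 2 := Real.rpow_one _
        have h3 : 1 / s ≤ s ^ (d - 1) := by
          rw [Real.rpow_sub_one hs0.ne']
          apply div_le_div_of_nonneg_right (Real.one_le_rpow hs hd0) hs0.le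
        have hKG : 1 ≤ K * cdbG d := by nlinarith
        have e1 : 25 * p ^ d / s = 25 * p ^ d * (1 / s) := by ring
        have t1 : 25 * p ^ d / s ≤ 25 * (K * cdbG d) * p ^ d * s ^ (d - 1) := by
          rw [e1]
          calc 25 * p ^ d * (1 / s) ≤ 25 * p ^ d * s ^ (d - 1) := by gcongr
            _ = 25 * 1 * (p ^ d * s ^ (d - 1)) := by ring
            _ ≤ 25 * (K * cdbG d) * (p ^ d * s ^ (d - 1)) := by gcongr
            _ = _ := by ring
        have t2 : 8 * K * 2 ^ d * p ^ d * s ^ (d - 1) * cdbG d ≤ 16 * (K * cdbG d) * p ^ d * s ^ (d - 1) := by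
          calc 8 * K * 2 ^ d * p ^ d * s ^ (d - 1) * cdbG d = 2 ^ d * (8 * K * cdbG d * p ^ d * s ^ (d - 1)) := by ring
            _ ≤ 2 * (8 * K * cdbG d * p ^ d * s ^ (d - 1)) := by
              apply mul_le_mul_of_nonneg_right h2
              have : 0 < cdbG d := by linarith
              positivity
            _ = _ := by ring
        calc _ ≤ 25 * (K * cdbG d) * p ^ d * s ^ (d - 1) + 16 * (K * cdbG d) * p ^ d * s ^ (d - 1) := add_le_add t1 t2
          _ = _ := by ring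

/-- the incidences which lie in the squares -/
def cdbInc {ι : Type*} (p : ℝ) (S : Finset ι) (ct cx : ι → ℝ) : Set ((ℝ × ℝ) × ℝ) :=
  {z | ∃ i ∈ S, |z.2 - ct i| ≤ p ∧ |z.1.1 + z.2 * z.1.2 - cx i| ≤ p}

/-- the vertically doubled squares -/
def cdbSq {ι : Type*} (p : ℝ) (S : Finset ι) (ct cx : ι → ℝ) : Set (ℝ × ℝ) :=
  {y | ∃ i ∈ S, |y.1 - ct i| ≤ p ∧ |y.2 - cx i| ≤ 2 * p}

theorem cdb_meas_abs {α : Type*} [MeasurableSpace α] {f : α → ℝ} (hf : Measurable f) (a : ℝ) :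
    MeasurableSet {z | |f z| ≤ a} := measurableSet_le (by fun_prop) measurable_const

theorem cdb_meas_and {α : Type*} [MeasurableSpace α] {f g : α → ℝ} (hf : Measurable f) (hg : Measurable g) (a b : ℝ) :
    MeasurableSet {z | |f z| ≤ a ∧ |g z| ≤ b} := (cdb_meas_abs hf a).inter (cdb_meas_abs hg b)

theorem cdb_inc_meas {ι : Type*} (p : ℝ) (S : Finset ι) (ct cx : ι → ℝ) : MeasurableSet (cdbInc p S ct cx) := by
  have : cdbInc p S ct cx = ⋃ i ∈ S, {z : (ℝ × ℝ) × ℝ | |z.2 - ct i| ≤ p ∧ |z.1.1 + z.2 * z.1.2 - cx i| ≤ p} := by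
    ext z
    simp only [cdbInc, mem_iUnion, mem_ofPred_eq, exists_prop]
  rw [this]
  refine Finset.measurableSet_biUnion _ fun i _ => ?_
  exact cdb_meas_and (by fun_prop) (by fun_prop) _ _

theorem cdb_sq_eq {ι : Type*} (p : ℝ) (S : Finset ι) (ct cx : ι → ℝ) :
    cdbSq p S ct cx = ⋃ i ∈ S, Metric.closedBall (ct i) p ×ˢ Metric.closedBall (cx i) (2 * p) := by
  ext y
  simp only [cdbSq, mem_iUnion, mem_ofPred_eq, exists_prop, mem_prod, Metric.mem_closedBall, Real.dist_eq]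

theorem cdb_sq_meas {ι : Type*} (p : ℝ) (S : Finset ι) (ct cx : ι → ℝ) : MeasurableSet (cdbSq p S ct cx) := by
  rw [cdb_sq_eq]
  exact Finset.measurableSet_biUnion _ fun i _ =>
    Metric.isClosed_closedBall.measurableSet.prod Metric.isClosed_closedBall.measurableSet

theorem cdb_sq_vol {ι : Type*} {p : ℝ} (hp : 0 < p) (S : Finset ι) (ct cx : ι → ℝ) :
    (cdbTime.prod volume) (cdbSq p S ct cx) ≤ ENNReal.ofReal (8 * S.card * p ^ 2) := by
  rw [cdb_sq_eq]
  refine (measure_biUnion_finset_le _ _).trans ?_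
  have h : ∀ i ∈ S, (cdbTime.prod volume) (Metric.closedBall (ct i) p ×ˢ Metric.closedBall (cx i) (2 * p)) ≤ ENNReal.ofReal (8 * p ^ 2) := by
    intro i _
    rw [Measure.prod_prod, Real.volume_closedBall]
    have h1 : cdbTime (Metric.closedBall (ct i) p) ≤ ENNReal.ofReal (2 * p) := by
      rw [← Real.volume_closedBall]
      exact Measure.restrict_le_self _
    calc _ ≤ ENNReal.ofReal (2 * p) * ENNReal.ofReal (2 * (2 * p)) := by gcongr
      _ = _ := by
        rw [← ENNReal.ofReal_mul (by positivity)]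
        congr 1
        ring
  refine (Finset.sum_le_sum h).trans ?_
  rw [Finset.sum_const, nsmul_eq_mul, ← ENNReal.ofReal_natCast, ← ENNReal.ofReal_mul (by positivity)]
  apply le_of_eq
  congr 1
  ring

/-- the number of tubes through a point -/
def cdbF (p : ℝ) (ν : Measure (ℝ × ℝ)) (y : ℝ × ℝ) : ℝ≥0∞ := ν {l | |y.2 - (l.1 + y.1 * l.2)| ≤ p}

theorem cdb_fub1 {ι : Type*} (p : ℝ) (ν : Measure (ℝ × ℝ)) [IsFiniteMeasure ν] (S : Finset ι) (ct cx : ι → ℝ) :
    ENNReal.ofReal (2 * p) * (ν.prod cdbTime) (cdbInc p S ct cx) ≤ ∫⁻ y in cdbSq p S ct cx, cdbF p ν y ∂(cdbTime.prod volume) := by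
  set U : Set ((ℝ × ℝ) × (ℝ × ℝ)) := {q | q.2 ∈ cdbSq p S ct cx ∧ |q.2.2 - (q.1.1 + q.2.1 * q.1.2)| ≤ p} with hU
  have hUm : MeasurableSet U :=
    (measurable_snd (cdb_sq_meas p S ct cx)).inter (cdb_meas_abs (by fun_prop) _)
  have e1 : (ν.prod (cdbTime.prod volume)) U = ∫⁻ y in cdbSq p S ct cx, cdbF p ν y ∂(cdbTime.prod volume) := by
    rw [Measure.prod_apply_symm hUm, ← lintegral_indicator (cdb_sq_meas p S ct cx)]
    apply lintegral_congr
    intro y
    by_cases hy : y ∈ cdbSq p S ct cx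
    · rw [indicator_of_mem hy, cdbF]
      congr 1
      ext l
      simp [hU, hy]
    · rw [indicator_of_notMem hy]
      have : (fun l => (l, y)) ⁻¹' U = ∅ := by
        ext l
        simp [hU, hy]
      rw [this, measure_empty]
  rw [← e1, Measure.prod_apply hUm, Measure.prod_apply (cdb_inc_meas p S ct cx), ← lintegral_const_mul' _ _ ENNReal.ofReal_ne_top]
  apply lintegral_mono
  intro l
  beta_reduce
  rw [Measure.prod_apply (measurable_prodMk_left hUm)]
  have hm : MeasurableSet (Prod.mk l ⁻¹' cdbInc p S ct cx) := measurable_prodMk_left (cdb_inc_meas p S ct cx)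
  calc ENNReal.ofReal (2 * p) * cdbTime (Prod.mk l ⁻¹' cdbInc p S ct cx)
      = ∫⁻ t, (Prod.mk l ⁻¹' cdbInc p S ct cx).indicator (fun _ => ENNReal.ofReal (2 * p)) t ∂cdbTime := by
        rw [lintegral_indicator_const hm]
    _ ≤ _ := by
        apply lintegral_mono
        intro t
        by_cases ht : t ∈ Prod.mk l ⁻¹' cdbInc p S ct cx
        · rw [indicator_of_mem ht, ← Real.volume_closedBall (l.1 + t * l.2) p]
          apply measure_mono
          intro x hx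
          rw [Metric.mem_closedBall, Real.dist_eq] at hx
          obtain ⟨i, hi, h1, h2⟩ := ht
          refine ⟨⟨i, hi, h1, ?_⟩, hx⟩
          have h2' : |l.1 + t * l.2 - cx i| ≤ p := h2
          have e : x - cx i = (x - (l.1 + t * l.2)) + (l.1 + t * l.2 - cx i) := by ring
          show |x - cx i| ≤ 2 * p
          rw [e]
          exact (abs_add_le _ _).trans (by linarith)
        · rw [indicator_of_notMem ht]
          exact zero_le

theorem cdb_fub2 (p : ℝ) (ν : Measure (ℝ × ℝ)) [IsFiniteMeasure ν] :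
    ∫⁻ y, cdbF p ν y * cdbF p ν y ∂(cdbTime.prod volume)
      ≤ ENNReal.ofReal (2 * p) * ∫⁻ l, ∫⁻ l', cdbTime {t | |(l.1 - l'.1) + t * (l.2 - l'.2)| ≤ 2 * p} ∂ν ∂ν := by
  set V : Set (((ℝ × ℝ) × (ℝ × ℝ)) × (ℝ × ℝ)) :=
    {q | |q.2.2 - (q.1.1.1 + q.2.1 * q.1.1.2)| ≤ p ∧ |q.2.2 - (q.1.2.1 + q.2.1 * q.1.2.2)| ≤ p} with hV
  have hVm : MeasurableSet V := cdb_meas_and (by fun_prop) (by fun_prop) _ _
  set Z : Set (((ℝ × ℝ) × (ℝ × ℝ)) × ℝ) := {q | |(q.1.1.1 - q.1.2.1) + q.2 * (q.1.1.2 - q.1.2.2)| ≤ 2 * p} with hZ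
  have hZm : MeasurableSet Z := cdb_meas_abs (by fun_prop) _
  have e1 : ((ν.prod ν).prod (cdbTime.prod volume)) V = ∫⁻ y, cdbF p ν y * cdbF p ν y ∂(cdbTime.prod volume) := by
    rw [Measure.prod_apply_symm hVm]
    apply lintegral_congr
    intro y
    rw [cdbF, ← Measure.prod_prod]
    congr 1
  rw [← e1, Measure.prod_apply hVm]
  have e2 : ∫⁻ l, ∫⁻ l', cdbTime {t | |(l.1 - l'.1) + t * (l.2 - l'.2)| ≤ 2 * p} ∂ν ∂ν
      = ∫⁻ x, cdbTime (Prod.mk x ⁻¹' Z) ∂(ν.prod ν) := by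
    rw [lintegral_prod _ (measurable_measure_prodMk_left hZm).aemeasurable]
    rfl
  rw [e2, ← lintegral_const_mul' _ _ ENNReal.ofReal_ne_top]
  apply lintegral_mono
  intro x
  beta_reduce
  rw [Measure.prod_apply (measurable_prodMk_left hVm)]
  have hm : MeasurableSet (Prod.mk x ⁻¹' Z) := measurable_prodMk_left hZm
  calc ∫⁻ t, volume (Prod.mk t ⁻¹' (Prod.mk x ⁻¹' V)) ∂cdbTime
      ≤ ∫⁻ t, (Prod.mk x ⁻¹' Z).indicator (fun _ => ENNReal.ofReal (2 * p)) t ∂cdbTime := by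
        apply lintegral_mono
        intro t
        by_cases ht : t ∈ Prod.mk x ⁻¹' Z
        · rw [indicator_of_mem ht, ← Real.volume_closedBall (x.1.1 + t * x.1.2) p]
          apply measure_mono
          intro u hu
          rw [Metric.mem_closedBall, Real.dist_eq]
          exact hu.1
        · rw [indicator_of_notMem ht]
          have : Prod.mk t ⁻¹' (Prod.mk x ⁻¹' V) = ∅ := by
            ext u
            simp only [mem_preimage, mem_empty_iff_false, iff_false]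
            rintro ⟨h1, h2⟩
            apply ht
            show |(x.1.1 - x.2.1) + t * (x.1.2 - x.2.2)| ≤ 2 * p
            have h1' : |u - (x.1.1 + t * x.1.2)| ≤ p := h1
            have h2' : |u - (x.2.1 + t * x.2.2)| ≤ p := h2
            have e : (x.1.1 - x.2.1) + t * (x.1.2 - x.2.2) = (u - (x.2.1 + t * x.2.2)) - (u - (x.1.1 + t * x.1.2)) := by ring
            rw [e]
            exact (abs_sub _ _).trans (by linarith)
          beta_reduce
          rw [this, measure_empty]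
    _ = _ := by rw [lintegral_indicator_const hm]

theorem cdb_arith {K p B M : ℝ} (hK : 1 ≤ K) (hp : 0 < p) (hB : 0 ≤ B) (hM : 0 ≤ M)
    (h : ∀ c₀ : ℝ, 0 ≤ c₀ → 2 * c₀ * (2 * p) * (1 / K) ≤ K * (2 * p * B * K + c₀ * c₀ * (8 * M * p ^ 2))) :
    1 ≤ 4 * p * B * K ^ 5 * M := by
  have hK0 : 0 < K := by linarith
  rcases hM.eq_or_lt with rfl | hM0
  · exfalso
    have hc : 0 ≤ B * K ^ 3 + 1 := by positivity
    have h1 := h (B * K ^ 3 + 1) hc
    have e1 : 2 * (B * K ^ 3 + 1) * (2 * p) * (1 / K) = 4 * p * (B * K ^ 2) + 4 * p / K := by field_simp; ring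
    rw [e1] at h1
    have h2 : 0 < 4 * p / K := by positivity
    have h3 : 0 ≤ p * (B * K ^ 2) := by positivity
    nlinarith
  · have hc : 0 ≤ 1 / (4 * K ^ 2 * M * p) := by positivity
    have h1 := h _ hc
    have e1 : 2 * (1 / (4 * K ^ 2 * M * p)) * (2 * p) * (1 / K) = 1 / (K ^ 3 * M) := by field_simp; ring
    have e2 : K * (2 * p * B * K + 1 / (4 * K ^ 2 * M * p) * (1 / (4 * K ^ 2 * M * p)) * (8 * M * p ^ 2))
        = 2 * p * B * K ^ 2 + 1 / (K ^ 3 * M) / 2 := by field_simp; ring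
    rw [e1, e2] at h1
    have h2 : 1 / (K ^ 3 * M) ≤ 4 * p * B * K ^ 2 := by linarith
    rw [div_le_iff₀ (by positivity)] at h2
    calc (1:ℝ) ≤ 4 * p * B * K ^ 2 * (K ^ 3 * M) := h2
      _ = _ := by ring

theorem cdb_count {d K p s : ℝ} (hd0 : 0 ≤ d) (hd1 : d < 1) (hK : 1 ≤ K) (hp : 0 < p) (hs : 1 ≤ s)
    (ν : Measure (ℝ × ℝ)) (lam : Measure ((ℝ × ℝ) × ℝ)) {ι : Type*} (S : Finset ι) (ct cx : ι → ℝ)
    (hν : ν univ ≤ ENNReal.ofReal K)
    (hdom : lam ≤ ENNReal.ofReal K • ν.prod cdbTime)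
    (hmass : ENNReal.ofReal (1 / K) ≤ lam univ)
    (hsupp : ∀ᵐ z ∂lam, ∃ i ∈ S, |z.2 - ct i| ≤ p ∧ |z.1.1 + z.2 * z.1.2 - cx i| ≤ p)
    (hcap : ∀ (a : ℝ × ℝ) (r : ℝ), p ≤ r → r ≤ 1 → ν (Metric.closedBall a r) ≤ ENNReal.ofReal (K * r ^ d))
    (hbin : ∀ i j : ℤ, ν (cdbBin p i j) ≤ ENNReal.ofReal (p ^ d / s ^ 3)) :
    p ^ (-1 - d) * s ^ (1 - d) ≤ 164 * cdbG d * K ^ 6 * S.card := by
  have : IsFiniteMeasure ν := ⟨lt_of_le_of_lt hν ENNReal.ofReal_lt_top⟩
  have hs0 : 0 < s := by linarith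
  have hK0 : 0 < K := by linarith
  have hG := cdb_G_one_le hd1
  have hG0 : 0 < cdbG d := by linarith
  have hP : 0 < p ^ d := Real.rpow_pos_of_pos hp _
  have hSd : 0 < s ^ (d - 1) := Real.rpow_pos_of_pos hs0 _
  set B : ℝ := 41 * K * cdbG d * p ^ d * s ^ (d - 1) with hB
  have hB0 : 0 ≤ B := by positivity
  set m := (ν.prod cdbTime) (cdbInc p S ct cx) with hm
  -- the mass of the incidences
  have h_m : ENNReal.ofReal (1 / K) ≤ ENNReal.ofReal K * m := by
    have h0 : lam (cdbInc p S ct cx)ᶜ = 0 := hsupp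
    calc ENNReal.ofReal (1 / K) ≤ lam univ := hmass
      _ = lam (cdbInc p S ct cx ∪ (cdbInc p S ct cx)ᶜ) := by rw [union_compl_self]
      _ ≤ lam (cdbInc p S ct cx) + lam (cdbInc p S ct cx)ᶜ := measure_union_le _ _
      _ = lam (cdbInc p S ct cx) := by rw [h0, add_zero]
      _ ≤ (ENNReal.ofReal K • ν.prod cdbTime) (cdbInc p S ct cx) := hdom _
      _ = _ := by rw [Measure.smul_apply, smul_eq_mul]
  have h_F1 := cdb_fub1 p ν S ct cx
  have h_F2 : ∫⁻ y, cdbF p ν y * cdbF p ν y ∂(cdbTime.prod volume) ≤ ENNReal.ofReal (2 * p * B * K) := by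
    refine (cdb_fub2 p ν).trans ?_
    calc ENNReal.ofReal (2 * p) * ∫⁻ l, ∫⁻ l', cdbTime {t | |(l.1 - l'.1) + t * (l.2 - l'.2)| ≤ 2 * p} ∂ν ∂ν
        ≤ ENNReal.ofReal (2 * p) * ∫⁻ _l, ENNReal.ofReal B ∂ν := by
          gcongr with l
          exact cdb_kernel hd0 hd1 hK hp hs ν hν hcap hbin l
      _ = ENNReal.ofReal (2 * p) * (ENNReal.ofReal B * ν univ) := by rw [lintegral_const]
      _ ≤ ENNReal.ofReal (2 * p) * (ENNReal.ofReal B * ENNReal.ofReal K) := by gcongr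
      _ = _ := by
          rw [← ENNReal.ofReal_mul hB0, ← ENNReal.ofReal_mul (by positivity)]
          congr 1
          ring
  have h_V := cdb_sq_vol hp S ct cx
  have key : ∀ c₀ : ℝ, 0 ≤ c₀ → 2 * c₀ * (2 * p) * (1 / K) ≤ K * (2 * p * B * K + c₀ * c₀ * (8 * (S.card : ℝ) * p ^ 2)) := by
    intro c₀ hc₀
    have hcs := cdb_cs (cdbTime.prod volume) (cdbSq p S ct cx) (cdbF p ν) (ENNReal.ofReal c₀) ENNReal.ofReal_ne_top
    have h1 : 2 * ENNReal.ofReal c₀ * (ENNReal.ofReal (2 * p) * ENNReal.ofReal (1 / K))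
        ≤ ENNReal.ofReal K * (ENNReal.ofReal (2 * p * B * K) + ENNReal.ofReal c₀ * ENNReal.ofReal c₀ * ENNReal.ofReal (8 * S.card * p ^ 2)) := by
      calc 2 * ENNReal.ofReal c₀ * (ENNReal.ofReal (2 * p) * ENNReal.ofReal (1 / K))
          ≤ 2 * ENNReal.ofReal c₀ * (ENNReal.ofReal (2 * p) * (ENNReal.ofReal K * m)) := by gcongr
        _ = ENNReal.ofReal K * (2 * ENNReal.ofReal c₀ * (ENNReal.ofReal (2 * p) * m)) := by ring
        _ ≤ ENNReal.ofReal K * (2 * ENNReal.ofReal c₀ * ∫⁻ y in cdbSq p S ct cx, cdbF p ν y ∂(cdbTime.prod volume)) := by gcongr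
        _ ≤ ENNReal.ofReal K * (∫⁻ y, cdbF p ν y * cdbF p ν y ∂(cdbTime.prod volume)
              + ENNReal.ofReal c₀ * ENNReal.ofReal c₀ * (cdbTime.prod volume) (cdbSq p S ct cx)) := by gcongr
        _ ≤ _ := by gcongr
    have e2 : (2 : ℝ≥0∞) = ENNReal.ofReal 2 := by simp
    rw [e2, ← ENNReal.ofReal_mul (by norm_num), ← ENNReal.ofReal_mul (by positivity), ← ENNReal.ofReal_mul (by positivity),
      ← ENNReal.ofReal_mul hc₀, ← ENNReal.ofReal_mul (by positivity), ← ENNReal.ofReal_add (by positivity) (by positivity),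
      ← ENNReal.ofReal_mul hK0.le, ENNReal.ofReal_le_ofReal_iff (by positivity)] at h1
    calc 2 * c₀ * (2 * p) * (1 / K) = 2 * c₀ * (2 * p * (1 / K)) := by ring
      _ ≤ _ := h1
  have hfin := cdb_arith hK hp hB0 (Nat.cast_nonneg S.card) key
  have hpp : p ^ (-1 - d) * (p * p ^ d) = 1 := by
    have : p * p ^ d = p ^ (1 + d) := by rw [Real.rpow_add hp, Real.rpow_one]
    rw [this, ← Real.rpow_add hp]
    have : -1 - d + (1 + d) = 0 := by ring
    rw [this, Real.rpow_zero]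
  have hss : s ^ (1 - d) * s ^ (d - 1) = 1 := by
    rw [← Real.rpow_add hs0]
    have : 1 - d + (d - 1) = 0 := by ring
    rw [this, Real.rpow_zero]
  have hpos : 0 ≤ p ^ (-1 - d) * s ^ (1 - d) := by positivity
  calc p ^ (-1 - d) * s ^ (1 - d) = p ^ (-1 - d) * s ^ (1 - d) * 1 := by ring
    _ ≤ p ^ (-1 - d) * s ^ (1 - d) * (4 * p * B * K ^ 5 * S.card) := by gcongr
    _ = 164 * cdbG d * K ^ 6 * S.card * (p ^ (-1 - d) * (p * p ^ d)) * (s ^ (1 - d) * s ^ (d - 1)) := by rw [hB]; ring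
    _ = _ := by rw [hpp, hss]; ring

/-- the constant of `cdb_cluster` -/
def cdbC (d : ℝ) : ℝ := max ((328 * cdbG d) ^ (3 / (1 - d))) (21 / (1 - d))

theorem cdb_C_ge {d : ℝ} (hd0 : 0 ≤ d) (hd1 : d < 1) : 1 ≤ cdbC d := by
  unfold cdbC
  refine le_trans ?_ (le_max_right _ _)
  rw [le_div_iff₀ (by linarith)]
  linarith

theorem cdb_cluster {d K p : ℝ} (hd0 : 0 ≤ d) (hd1 : d < 1) (hK : 1 ≤ K) (hp : 0 < p)
    (ν : Measure (ℝ × ℝ)) (lam : Measure ((ℝ × ℝ) × ℝ)) {ι : Type*} (S : Finset ι) (ct cx : ι → ℝ)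
    (hν : ν univ ≤ ENNReal.ofReal K)
    (hdom : lam ≤ ENNReal.ofReal K • ν.prod cdbTime)
    (hmass : ENNReal.ofReal (1 / K) ≤ lam univ)
    (hcard : (S.card : ℝ) ≤ K * p ^ (-1 - d))
    (hsupp : ∀ᵐ z ∂lam, ∃ i ∈ S, |z.2 - ct i| ≤ p ∧ |z.1.1 + z.2 * z.1.2 - cx i| ≤ p)
    (hcap : ∀ (a : ℝ × ℝ) (r : ℝ), p ≤ r → r ≤ 1 → ν (Metric.closedBall a r) ≤ ENNReal.ofReal (K * r ^ d)) :
    ∃ i j : ℤ, ENNReal.ofReal (p ^ d / (cdbC d * K ^ cdbC d)) ≤ ν (cdbBin p i j) := by
  by_contra hcon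
  push Not at hcon
  have hK0 : 0 < K := by linarith
  have hG := cdb_G_one_le hd1
  have hG0 : 0 < cdbG d := by linarith
  have h1d : 0 < 1 - d := by linarith
  have hP : 0 < p ^ d := Real.rpow_pos_of_pos hp _
  set X : ℝ := 328 * cdbG d * K ^ 7 with hX
  have hK7 : 1 ≤ K ^ 7 := one_le_pow₀ hK
  have hX1 : 1 ≤ X := by rw [hX]; nlinarith
  have hX0 : 0 < X := by linarith
  set s : ℝ := X ^ (1 / (1 - d)) with hs
  have hs1 : 1 ≤ s := Real.one_le_rpow hX1 (by positivity)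
  have hs0 : 0 < s := by linarith
  have hsd : s ^ (1 - d) = X := by
    rw [hs, ← Real.rpow_mul hX0.le, one_div, inv_mul_cancel₀ h1d.ne', Real.rpow_one]
  have hs3 : s ^ 3 ≤ cdbC d * K ^ cdbC d := by
    have e : s ^ 3 = (328 * cdbG d) ^ (3 / (1 - d)) * K ^ (21 / (1 - d)) := by
      rw [hs, ← Real.rpow_natCast, ← Real.rpow_mul hX0.le, hX, Real.mul_rpow (by positivity) (by positivity),
        ← Real.rpow_natCast K 7, ← Real.rpow_mul hK0.le]
      congr 2
      · push_cast; ring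
      · push_cast; ring
    rw [e]
    apply mul_le_mul (le_max_left _ _) (Real.rpow_le_rpow_of_exponent_le hK (le_max_right _ _)) (by positivity)
    exact le_trans zero_le_one (cdb_C_ge hd0 hd1)
  have hbin : ∀ i j : ℤ, ν (cdbBin p i j) ≤ ENNReal.ofReal (p ^ d / s ^ 3) := by
    intro i j
    refine (hcon i j).le.trans (ENNReal.ofReal_le_ofReal ?_)
    exact div_le_div_of_nonneg_left hP.le (by positivity) hs3
  have h := cdb_count hd0 hd1 hK hp hs1 ν lam S ct cx hν hdom hmass hsupp hcap hbin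
  rw [hsd] at h
  have hpp : 0 < p ^ (-1 - d) := Real.rpow_pos_of_pos hp _
  have h2 : p ^ (-1 - d) * X ≤ p ^ (-1 - d) * (164 * cdbG d * K ^ 7) := by
    calc p ^ (-1 - d) * X ≤ 164 * cdbG d * K ^ 6 * S.card := h
      _ ≤ 164 * cdbG d * K ^ 6 * (K * p ^ (-1 - d)) := by gcongr
      _ = _ := by ring
  have h3 : X ≤ 164 * cdbG d * K ^ 7 := le_of_mul_le_mul_left h2 hpp
  rw [hX] at h3
  have : 0 < cdbG d * K ^ 7 := by positivity
  linarith

theorem cdb_cluster_gen {L : Type*} [MeasurableSpace L] {d K p : ℝ} (hd0 : 0 ≤ d) (hd1 : d < 1) (hK : 1 ≤ K) (hp : 0 < p)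
    (ν : Measure L) (x0 x1 : L → ℝ) (hx0 : Measurable x0) (hx1 : Measurable x1)
    (lam : Measure (L × ℝ)) {ι : Type*} (S : Finset ι) (ct cx : ι → ℝ)
    (hν : ν univ ≤ ENNReal.ofReal K)
    (hdom : lam ≤ ENNReal.ofReal K • ν.prod cdbTime)
    (hmass : ENNReal.ofReal (1 / K) ≤ lam univ)
    (hcard : (S.card : ℝ) ≤ K * p ^ (-1 - d))
    (hsupp : ∀ᵐ z ∂lam, ∃ i ∈ S, |z.2 - ct i| ≤ p ∧ |x0 z.1 + z.2 * x1 z.1 - cx i| ≤ p)
    (hcap : ∀ (a : ℝ × ℝ) (r : ℝ), p ≤ r → r ≤ 1 → ν {l | |x0 l - a.1| ≤ r ∧ |x1 l - a.2| ≤ r} ≤ ENNReal.ofReal (K * r ^ d)) :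
    ∃ i j : ℤ, ENNReal.ofReal (p ^ d / (cdbC d * K ^ cdbC d)) ≤ ν {l | (x0 l, x1 l) ∈ cdbBin p i j} := by
  have : IsFiniteMeasure ν := ⟨lt_of_le_of_lt hν ENNReal.ofReal_lt_top⟩
  set φ : L → ℝ × ℝ := fun l => (x0 l, x1 l) with hφ
  have hφm : Measurable φ := hx0.prodMk hx1
  have hΦm : Measurable (Prod.map φ (id : ℝ → ℝ)) := hφm.prodMap measurable_id
  have h := cdb_cluster hd0 hd1 hK hp (ν.map φ) (lam.map (Prod.map φ id)) S ct cx
    (by rw [Measure.map_apply hφm MeasurableSet.univ]; exact hν)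
    (by
      refine (Measure.map_mono hdom hΦm).trans ?_
      rw [Measure.map_smul, ← Measure.map_prod_map ν cdbTime hφm measurable_id, Measure.map_id])
    (by rw [Measure.map_apply hΦm MeasurableSet.univ]; exact hmass)
    hcard
    (by
      rw [ae_map_iff hΦm.aemeasurable (cdb_inc_meas p S ct cx)]
      exact hsupp)
    (by
      intro a r h1 h2
      rw [Measure.map_apply hφm Metric.isClosed_closedBall.measurableSet]
      refine le_trans (le_of_eq ?_) (hcap a r h1 h2)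
      congr 1
      ext l
      simp only [mem_preimage, Metric.mem_closedBall, Prod.dist_eq, max_le_iff, Real.dist_eq, mem_ofPred_eq, hφ])
  obtain ⟨i, j, hij⟩ := h
  refine ⟨i, j, ?_⟩
  rw [Measure.map_apply hφm (cdb_bin_meas p i j)] at hij
  exact hij

/-- the constant of `cdb_exhaust` -/
def cdbD (d : ℝ) : ℝ := 4 * cdbC d * 2 ^ cdbC d + 2

theorem cdb_D_ge {d : ℝ} (hd0 : 0 ≤ d) (hd1 : d < 1) : 1 ≤ cdbD d := by
  unfold cdbD
  have h := cdb_C_ge hd0 hd1
  have h2 : 0 < (2:ℝ) ^ cdbC d := Real.rpow_pos_of_pos (by norm_num) _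
  have : 0 ≤ 4 * cdbC d * 2 ^ cdbC d := by positivity
  linarith

theorem cdb_D_arith {d K : ℝ} (hd0 : 0 ≤ d) (hd1 : d < 1) (hK : 1 ≤ K) :
    2 * K ^ 2 * (cdbC d * (2 * K) ^ cdbC d) ≤ cdbD d * K ^ cdbD d := by
  have hC := cdb_C_ge hd0 hd1
  have hK0 : 0 < K := by linarith
  have h2C : 1 ≤ (2:ℝ) ^ cdbC d := Real.one_le_rpow (by norm_num) (by linarith)
  have e : 2 * K ^ 2 * (cdbC d * (2 * K) ^ cdbC d) = 2 * cdbC d * 2 ^ cdbC d * K ^ (cdbC d + 2) := by
    rw [Real.mul_rpow (by norm_num) hK0.le, Real.rpow_add hK0, Real.rpow_two]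
    ring
  rw [e]
  have hD1 : 2 * cdbC d * 2 ^ cdbC d ≤ cdbD d := by
    unfold cdbD
    have : 0 ≤ cdbC d * 2 ^ cdbC d := by positivity
    linarith
  have hD2 : cdbC d + 2 ≤ cdbD d := by
    unfold cdbD
    nlinarith
  apply mul_le_mul hD1 (Real.rpow_le_rpow_of_exponent_le hK hD2) (by positivity)
  exact le_trans zero_le_one (cdb_D_ge hd0 hd1)

theorem cdb_exhaust {L : Type*} [MeasurableSpace L] {d K p : ℝ} (hd0 : 0 ≤ d) (hd1 : d < 1) (hK : 1 ≤ K) (hp : 0 < p)
    (ν : Measure L) (x0 x1 : L → ℝ) (hx0 : Measurable x0) (hx1 : Measurable x1)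
    (lam : Measure (L × ℝ)) {ι : Type*} (S : Finset ι) (ct cx : ι → ℝ)
    (hν : ν univ ≤ ENNReal.ofReal K)
    (hdom : lam ≤ ENNReal.ofReal K • ν.prod cdbTime)
    (hcard : (S.card : ℝ) ≤ K * p ^ (-1 - d))
    (hsupp : ∀ᵐ z ∂lam, ∃ i ∈ S, |z.2 - ct i| ≤ p ∧ |x0 z.1 + z.2 * x1 z.1 - cx i| ≤ p)
    (hcap : ∀ (a : ℝ × ℝ) (r : ℝ), p ≤ r → r ≤ 1 → ν {l | |x0 l - a.1| ≤ r ∧ |x1 l - a.2| ≤ r} ≤ ENNReal.ofReal (K * r ^ d)) :
    lam {z | ∃ i j : ℤ, (x0 z.1, x1 z.1) ∈ cdbBin p i j ∧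
      lam {w | (x0 w.1, x1 w.1) ∈ cdbBin p i j} < ENNReal.ofReal (p ^ d / (cdbD d * K ^ cdbD d))} ≤ ENNReal.ofReal (1 / K) := by
  by_contra hcon
  push Not at hcon
  have hK0 : 0 < K := by linarith
  have hfin : IsFiniteMeasure ν := ⟨lt_of_le_of_lt hν ENNReal.ofReal_lt_top⟩
  have hφm : Measurable fun l => (x0 l, x1 l) := hx0.prodMk hx1
  set thr : ℝ≥0∞ := ENNReal.ofReal (p ^ d / (cdbD d * K ^ cdbD d)) with hthr
  set binL : ℤ → ℤ → Set L := fun i j => {l | (x0 l, x1 l) ∈ cdbBin p i j} with hbinL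
  have hbinm : ∀ i j, MeasurableSet (binL i j) := fun i j => hφm (cdb_bin_meas p i j)
  set lam1 : Measure L := lam.map Prod.fst with hlam1
  have hl1 : ∀ B : Set L, MeasurableSet B → lam1 B = lam (Prod.fst ⁻¹' B) := fun B hB => Measure.map_apply measurable_fst hB
  have hl1le : ∀ B : Set L, MeasurableSet B → lam1 B ≤ ENNReal.ofReal K * ν B := by
    intro B hB
    rw [hl1 B hB]
    refine (hdom _).trans ?_
    rw [Measure.smul_apply, smul_eq_mul]
    have : (Prod.fst ⁻¹' B : Set (L × ℝ)) = B ×ˢ univ := by ext z; simp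
    rw [this, Measure.prod_prod, cdb_time_univ, mul_one]
  have hfin1 : IsFiniteMeasure lam1 := by
    refine ⟨lt_of_le_of_lt (hl1le univ MeasurableSet.univ) ?_⟩
    exact ENNReal.mul_lt_top ENNReal.ofReal_lt_top (measure_lt_top ν univ)
  have hac : lam1 ≪ ν := by
    refine Measure.AbsolutelyContinuous.mk fun B hB h0 => ?_
    have := hl1le B hB
    rw [h0, mul_zero] at this
    exact le_antisymm this zero_le
  set ℓ : L → ℝ≥0∞ := lam1.rnDeriv ν with hℓ
  have hℓm : Measurable ℓ := Measure.measurable_rnDeriv _ _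
  have hwd : ∀ B : Set L, MeasurableSet B → lam1 B = ∫⁻ l in B, ℓ l ∂ν := by
    intro B hB
    rw [← withDensity_apply _ hB, hℓ, Measure.withDensity_rnDeriv_eq _ _ hac]
  set η : ℝ≥0∞ := ENNReal.ofReal (1 / (2 * K ^ 2)) with hη
  set L' : Set L := {l | η ≤ ℓ l} with hL'
  have hL'm : MeasurableSet L' := measurableSet_le measurable_const hℓm
  set Z₁ : Set L := {l | ∃ i j : ℤ, (x0 l, x1 l) ∈ cdbBin p i j ∧ lam {w | (x0 w.1, x1 w.1) ∈ cdbBin p i j} < thr} with hZ₁
  have hZ₁m : MeasurableSet Z₁ := by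
    have : Z₁ = ⋃ i : ℤ, ⋃ j : ℤ, (binL i j ∩ {_l | lam {w | (x0 w.1, x1 w.1) ∈ cdbBin p i j} < thr}) := by
      ext l
      simp only [hZ₁, hbinL, mem_iUnion, mem_inter_iff, mem_ofPred_eq]
    rw [this]
    exact MeasurableSet.iUnion fun i => MeasurableSet.iUnion fun j => (hbinm i j).inter (MeasurableSet.const _)
  have hZ : ENNReal.ofReal (1 / K) < lam1 Z₁ := by
    rw [hl1 Z₁ hZ₁m]
    exact hcon
  set B₀ : Set L := Z₁ ∩ L' with hB₀
  have hB₀m : MeasurableSet B₀ := hZ₁m.inter hL'm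
  -- (a) short labels
  have ha : lam1 (Z₁ \ L') ≤ ENNReal.ofReal (1 / (2 * K)) := by
    rw [hwd _ (hZ₁m.diff hL'm)]
    calc ∫⁻ l in Z₁ \ L', ℓ l ∂ν ≤ ∫⁻ _l in Z₁ \ L', η ∂ν := by
          apply setLIntegral_mono' (hZ₁m.diff hL'm)
          intro l hl
          have : ¬ η ≤ ℓ l := hl.2
          exact (not_le.1 this).le
      _ = η * ν (Z₁ \ L') := setLIntegral_const _ _
      _ ≤ η * ENNReal.ofReal K := by
          gcongr
          exact (measure_mono (subset_univ _)).trans hν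
      _ = _ := by
          rw [hη, ← ENNReal.ofReal_mul (by positivity)]
          congr 1
          field_simp
  -- (b) the long labels keep half of the mass
  have hb : ENNReal.ofReal (1 / (2 * K)) ≤ lam1 B₀ := by
    have h1 : lam1 Z₁ ≤ lam1 B₀ + lam1 (Z₁ \ L') := by
      have : Z₁ = B₀ ∪ (Z₁ \ L') := by rw [hB₀, inter_union_sdiff]
      calc lam1 Z₁ = lam1 (B₀ ∪ (Z₁ \ L')) := by rw [← this]
        _ ≤ _ := measure_union_le _ _
    have h2 : ENNReal.ofReal (1 / K) = ENNReal.ofReal (1 / (2 * K)) + ENNReal.ofReal (1 / (2 * K)) := by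
      rw [← ENNReal.ofReal_add (by positivity) (by positivity)]
      congr 1
      field_simp
      norm_num
    have h3 : ENNReal.ofReal (1 / (2 * K)) + ENNReal.ofReal (1 / (2 * K)) ≤ lam1 B₀ + ENNReal.ofReal (1 / (2 * K)) := by
      rw [← h2]
      exact hZ.le.trans (h1.trans (by gcongr))
    exact (ENNReal.add_le_add_iff_right ENNReal.ofReal_ne_top).1 h3
  -- (c) clustering
  have h2K : 1 ≤ 2 * K := by linarith
  have hKK : ENNReal.ofReal K ≤ ENNReal.ofReal (2 * K) := ENNReal.ofReal_le_ofReal (by linarith)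
  have hT : (Prod.fst ⁻¹' B₀ : Set (L × ℝ)) = B₀ ×ˢ univ := by ext z; simp
  obtain ⟨i, j, hij⟩ := cdb_cluster_gen hd0 hd1 h2K hp (ν.restrict B₀) x0 x1 hx0 hx1 (lam.restrict (Prod.fst ⁻¹' B₀)) S ct cx
    (by
      rw [Measure.restrict_apply_univ]
      exact (measure_mono (subset_univ _)).trans (hν.trans hKK))
    (by
      refine (Measure.restrict_mono (le_refl _) hdom).trans ?_
      rw [Measure.restrict_smul, hT, ← Measure.prod_restrict, Measure.restrict_univ]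
      intro A
      rw [Measure.smul_apply, Measure.smul_apply, smul_eq_mul, smul_eq_mul]
      gcongr)
    (by
      rw [Measure.restrict_apply_univ, ← hl1 B₀ hB₀m]
      exact hb)
    (by
      have : 0 < p ^ (-1 - d) := Real.rpow_pos_of_pos hp _
      nlinarith)
    (ae_restrict_of_ae hsupp)
    (by
      intro a r h1 h2
      refine (Measure.restrict_le_self _).trans ((hcap a r h1 h2).trans (ENNReal.ofReal_le_ofReal ?_))
      have : 0 < r ^ d := Real.rpow_pos_of_pos (hp.trans_le h1) _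
      nlinarith)
  have hij' : ENNReal.ofReal (p ^ d / (cdbC d * (2 * K) ^ cdbC d)) ≤ ν (binL i j ∩ B₀) := by
    rw [← Measure.restrict_apply (hbinm i j)]
    exact hij
  have hC := cdb_C_ge hd0 hd1
  have hP : 0 < p ^ d := Real.rpow_pos_of_pos hp _
  have hKC : 0 < (2 * K) ^ cdbC d := Real.rpow_pos_of_pos (by linarith) _
  -- (d) the bin is light
  have hlight : lam {w | (x0 w.1, x1 w.1) ∈ cdbBin p i j} < thr := by
    have hpos : 0 < ν (binL i j ∩ B₀) := lt_of_lt_of_le (ENNReal.ofReal_pos.2 (by positivity)) hij'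
    obtain ⟨l, hl⟩ := nonempty_of_measure_ne_zero hpos.ne'
    obtain ⟨i', j', h1, h2⟩ := hl.2.1
    have e1 := cdb_bin_idx hp h1
    have e2 := cdb_bin_idx hp (show (x0 l, x1 l) ∈ cdbBin p i j from hl.1)
    have ei : i' = i := e1.1.symm.trans e2.1
    have ej : j' = j := e1.2.symm.trans e2.2
    rw [ei, ej] at h2
    exact h2
  -- (e) but it is heavy
  have hheavy : thr ≤ lam {w | (x0 w.1, x1 w.1) ∈ cdbBin p i j} := by
    have e : {w : L × ℝ | (x0 w.1, x1 w.1) ∈ cdbBin p i j} = Prod.fst ⁻¹' binL i j := rfl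
    rw [e, ← hl1 _ (hbinm i j)]
    calc thr ≤ η * ENNReal.ofReal (p ^ d / (cdbC d * (2 * K) ^ cdbC d)) := by
          rw [hthr, hη, ← ENNReal.ofReal_mul (by positivity)]
          apply ENNReal.ofReal_le_ofReal
          have e3 : 1 / (2 * K ^ 2) * (p ^ d / (cdbC d * (2 * K) ^ cdbC d)) = p ^ d / (2 * K ^ 2 * (cdbC d * (2 * K) ^ cdbC d)) := by
            field_simp
          rw [e3]
          exact div_le_div_of_nonneg_left hP.le (by positivity) (cdb_D_arith hd0 hd1 hK)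
      _ ≤ η * ν (binL i j ∩ B₀) := by gcongr
      _ = ∫⁻ _l in binL i j ∩ B₀, η ∂ν := (setLIntegral_const _ _).symm
      _ ≤ ∫⁻ l in binL i j ∩ B₀, ℓ l ∂ν := by
          apply setLIntegral_mono' ((hbinm i j).inter hB₀m)
          intro l hl
          exact hl.2.2
      _ = lam1 (binL i j ∩ B₀) := (hwd _ ((hbinm i j).inter hB₀m)).symm
      _ ≤ lam1 (binL i j) := measure_mono inter_subset_left
  exact absurd hlight (not_lt.2 hheavy)

/-- the number of bins of active mass `≥ θ` is `≤ K^2 / θ` (with `θ = p^d / (D K^D)`: at most `D K^(D+2) p^(-d)` heavy bins) -/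
theorem cdb_heavy_card {L : Type*} [MeasurableSpace L] {K p θ : ℝ} (hK : 1 ≤ K) (hp : 0 < p)
    (ν : Measure L) (x0 x1 : L → ℝ) (hx0 : Measurable x0) (hx1 : Measurable x1) (lam : Measure (L × ℝ))
    (hν : ν univ ≤ ENNReal.ofReal K)
    (hdom : lam ≤ ENNReal.ofReal K • ν.prod cdbTime)
    (F : Finset (ℤ × ℤ))
    (hF : ∀ q ∈ F, ENNReal.ofReal θ ≤ lam {w | (x0 w.1, x1 w.1) ∈ cdbBin p q.1 q.2}) :
    (F.card : ℝ) * θ ≤ K ^ 2 := by
  have hK0 : 0 < K := by linarith
  have hm : Measurable fun w : L × ℝ => (x0 w.1, x1 w.1) := (hx0.comp measurable_fst).prodMk (hx1.comp measurable_fst)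
  have hdisj : (F : Set (ℤ × ℤ)).PairwiseDisjoint fun q => {w : L × ℝ | (x0 w.1, x1 w.1) ∈ cdbBin p q.1 q.2} := by
    intro q _ q' _ hne
    rw [Function.onFun, Set.disjoint_left]
    intro w h1 h2
    apply hne
    have e1 := cdb_bin_idx hp h1
    have e2 := cdb_bin_idx hp h2
    exact Prod.ext (e1.1.symm.trans e2.1) (e1.2.symm.trans e2.2)
  have h1 : (F.card : ℝ≥0∞) * ENNReal.ofReal θ ≤ ENNReal.ofReal (K * K) := by
    calc (F.card : ℝ≥0∞) * ENNReal.ofReal θ = ∑ _q ∈ F, ENNReal.ofReal θ := by rw [Finset.sum_const, nsmul_eq_mul]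
      _ ≤ ∑ q ∈ F, lam {w | (x0 w.1, x1 w.1) ∈ cdbBin p q.1 q.2} := Finset.sum_le_sum hF
      _ = lam (⋃ q ∈ F, {w | (x0 w.1, x1 w.1) ∈ cdbBin p q.1 q.2}) :=
          (measure_biUnion_finset hdisj fun q _ => hm (cdb_bin_meas p q.1 q.2)).symm
      _ ≤ lam univ := measure_mono (subset_univ _)
      _ ≤ (ENNReal.ofReal K • ν.prod cdbTime) univ := hdom _
      _ = ENNReal.ofReal K * ν univ := by
          rw [Measure.smul_apply, smul_eq_mul, ← univ_prod_univ, Measure.prod_prod, cdb_time_univ, mul_one]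
      _ ≤ ENNReal.ofReal K * ENNReal.ofReal K := by gcongr
      _ = _ := (ENNReal.ofReal_mul hK0.le).symm
  rw [← ENNReal.ofReal_natCast, ← ENNReal.ofReal_mul (by positivity), ENNReal.ofReal_le_ofReal_iff (by positivity)] at h1
  calc (F.card : ℝ) * θ ≤ K * K := h1
    _ = K ^ 2 := by ring

end

end Claimed.Agent.R252
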